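import Vale.Agent.N128.Least

/-! Absolute minimizers of the Mumford-Shah functional are minimizers. -/

open MeasureTheory Set Metric Filter
open scoped ENNReal NNReal ContDiff Topology Real

namespace Vale.Agent.N128

open Vale.Agent.P128

theorem energy_split {Ω V : Set ℂ} (hV : MeasurableSet V) (hVΩ : V ⊆ Ω) (g u : ℂ → ℝ)
    (G : ℂ → ℂ) (K : Set ℂ) :
    energy g u G K Ω = energy g u G K V + energy g u G K (Ω \ V) := by
  unfold energy
  have e : Ω ∩ V = V := inter_eq_self_of_subset_right hVΩ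
  rw [← lintegral_inter_add_sdiff _ (Ω \ K) hV, ← lintegral_inter_add_sdiff _ Ω hV,
    ← measure_inter_add_sdiff (K ∩ Ω) hV, sdiff_inter_right_comm, e, inter_assoc, e,
    inter_sdiff_assoc, sdiff_sdiff_comm]
  ring

theorem abs_min {Ω K : Set ℂ} {g u : ℂ → ℝ} {G : ℂ → ℂ} (hΩ : IsOpen Ω) (hb : volume Ω < ⊤)
    (hg : MemLp g ⊤ (volume.restrict Ω)) (h : Admissible Ω u G K)
    (hmin : ∀ w H L, Admissible Ω w H L → energy g u G K Ω ≤ energy g w H L Ω) :
    IsMinimizer Ω g u G K := by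
  refine ⟨h, fun V hV _ hVΩ w H L hL ⟨C, c1, c2, c3, c4⟩ => ?_⟩
  have hV' := subset_closure.trans hVΩ
  have key := hmin w H L hL
  have : IsFiniteMeasure (volume.restrict Ω : Measure ℂ) :=
    ⟨by rw [Measure.restrict_apply_univ]; exact hb⟩
  have fin : energy g u G K Ω < ⊤ := ENNReal.add_lt_top.2 ⟨ENNReal.add_lt_top.2
    ⟨((memLp_two_iff_integrable_sq_norm h.grad_memLp.1).1 h.grad_memLp).lintegral_lt_top,
      (measure_mono inter_subset_left).trans_lt h.finite⟩,
    (h.memLp.sub (hg.mono_exponent le_top)).integrable_sq.lintegral_lt_top⟩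
  have hKL : ∀ z, z ∉ C → (z ∈ L ↔ z ∈ K) := fun z hz =>
    ⟨fun h1 => by_contra fun h2 => hz (c3 (Or.inl ⟨h1, h2⟩)),
      fun h1 => by_contra fun h2 => hz (c3 (Or.inr ⟨h1, h2⟩))⟩
  have m1 : MeasurableSet (Ω \ V) := hΩ.measurableSet.diff hV.measurableSet
  have c5 := (ae_restrict_iff' hΩ.measurableSet).1 c4
  have hGH := GM.clUniq ((h.isOpen_diff hΩ).sdiff c1.isClosed) (w12_of_adm h sdiff_subset)
    (w12_of_adm hL fun z hz => ⟨hz.1.1, fun h1 => hz.1.2 ((hKL z hz.2).1 h1)⟩)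
    (by filter_upwards [c5] with z h1 h2 using (h1 h2.1.1 h2.2).symm)
  have e : energy g w H L (Ω \ V) = energy g u G K (Ω \ V) := by
    unfold energy
    have e1 : (Ω \ V) \ L = (Ω \ V) \ K := Set.ext fun z =>
      and_congr_right fun hz => (hKL z fun h1 => hz.2 (c2 h1)).not
    have e2 : L ∩ (Ω \ V) = K ∩ (Ω \ V) := Set.ext fun z =>
      and_congr_left fun hz => hKL z fun h1 => hz.2 (c2 h1)
    rw [e1, e2]
    refine congrArg₂ (· + ·) (congrArg (· + _) ?_) ?_
    · refine setLIntegral_congr_fun_ae (m1.diff (h.measurableSet hΩ)) ?_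
      filter_upwards [hGH] with z h1 h2
      rw [h1 ⟨⟨h2.1.1, h2.2⟩, fun h3 => h2.1.2 (c2 h3)⟩]
    · refine setLIntegral_congr_fun_ae m1 ?_
      filter_upwards [c5] with z h1 h2
      rw [h1 h2.1 fun h3 => h2.2 (c2 h3)]
  rw [energy_split hV.measurableSet hV'] at fin
  rw [energy_split hV.measurableSet hV', energy_split hV.measurableSet hV', e] at key
  exact (ENNReal.add_le_add_iff_right (ENNReal.add_lt_top.1 fin).2.ne).1 key

end Vale.Agent.N128
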