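import Vale.Agent.P128.Bdl.B5

/-! Compact sets of zero length have zero `W^{1,1}` capacity: cut-off functions. -/

open MeasureTheory Set Metric Filter
open scoped ENNReal NNReal ContDiff Topology Real

namespace Vale.Agent.N128

open Vale.Agent.P128

theorem cover {Z : Set ℂ} (hZ : IsCompact Z) (h0 : μH[1] Z = 0) {ε : ℝ} (hε : 0 < ε) :
    ∃ (s : Finset ℕ) (x : ℕ → ℂ) (r : ℕ → ℝ), (∀ n, 0 < r n) ∧
      Z ⊆ ⋃ n ∈ s, ball (x n) (r n) ∧ ∑ n ∈ s, r n ≤ ε := by
  classical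
  rw [Measure.hausdorffMeasure_apply] at h0
  have h1 : ⨅ (t : ℕ → Set ℂ) (_ : Z ⊆ ⋃ n, t n) (_ : ∀ n, ediam (t n) ≤ 1),
      ∑' n, ⨆ _ : (t n).Nonempty, ediam (t n) ^ (1 : ℝ) < ENNReal.ofReal (ε / 2) := by
    refine lt_of_le_of_lt ?_ (ENNReal.ofReal_pos.2 (half_pos hε))
    rw [← h0]
    exact le_iSup₂_of_le 1 one_pos le_rfl
  simp only [iInf_lt_iff] at h1
  obtain ⟨t, ht, ht1, hs⟩ := h1
  have he : ∀ n, (⨆ _ : (t n).Nonempty, ediam (t n) ^ (1 : ℝ)) = ediam (t n) := fun n => by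
    rcases (t n).eq_empty_or_nonempty with h | h
    · simp [h]
    · simp [h]
  simp only [he] at hs
  obtain ⟨δ, hδ, hδs⟩ := ENNReal.exists_pos_sum_of_countable
    (ENNReal.ofReal_pos.2 (half_pos hε)).ne' ℕ
  have hfin : ∀ n, ediam (t n) ≠ ⊤ := fun n => ((ht1 n).trans_lt ENNReal.one_lt_top).ne
  set x : ℕ → ℂ := fun n => if h : (t n).Nonempty then h.choose else 0 with hx
  set r : ℕ → ℝ := fun n => (ediam (t n)).toReal + δ n with hr
  have hr0 : ∀ n, 0 < r n := fun n => by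
    have : (0 : ℝ) < δ n := hδ n
    simp only [hr]; positivity
  have hc : Z ⊆ ⋃ n, ball (x n) (r n) := fun z hz => by
    obtain ⟨n, hn⟩ := mem_iUnion.1 (ht hz)
    refine mem_iUnion.2 ⟨n, ?_⟩
    have hne : (t n).Nonempty := ⟨z, hn⟩
    have h2 : x n ∈ t n := by simp only [hx, dif_pos hne]; exact hne.choose_spec
    have h3 : dist z (x n) ≤ (ediam (t n)).toReal := by
      rw [dist_edist]
      exact ENNReal.toReal_mono (hfin n) (edist_le_ediam_of_mem hn h2)
    have : (0 : ℝ) < δ n := hδ n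
    simp only [mem_ball, hr]; linarith
  obtain ⟨s, hs'⟩ := hZ.elim_finite_subcover _ (fun n => isOpen_ball) hc
  refine ⟨s, x, r, hr0, hs', ?_⟩
  have h4 : ENNReal.ofReal (∑ n ∈ s, r n) ≤ ENNReal.ofReal ε := by
    rw [ENNReal.ofReal_sum_of_nonneg fun n _ => (hr0 n).le]
    have h5 : ∀ n, ENNReal.ofReal (r n) = ediam (t n) + δ n := fun n => by
      simp only [hr]
      rw [ENNReal.ofReal_add ENNReal.toReal_nonneg (δ n).coe_nonneg, ENNReal.ofReal_toReal (hfin n),
        ENNReal.ofReal_coe_nnreal]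
    simp only [h5]
    rw [Finset.sum_add_distrib]
    calc _ ≤ ENNReal.ofReal (ε / 2) + ENNReal.ofReal (ε / 2) :=
          add_le_add ((ENNReal.sum_le_tsum s).trans hs.le) ((ENNReal.sum_le_tsum s).trans hδs.le)
      _ = ENNReal.ofReal ε := by
          rw [← ENNReal.ofReal_add (half_pos hε).le (half_pos hε).le, add_halves]
  exact (ENNReal.ofReal_le_ofReal_iff hε.le).1 h4

/-- One cut-off function, at scale `r`. -/
theorem one_cut : ∃ M : ℝ, 0 < M ∧ ∀ (x : ℂ) (r : ℝ), 0 < r → ∃ η : ℂ → ℝ, ContDiff ℝ ∞ η ∧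
    (∀ z, 0 ≤ η z ∧ η z ≤ 1) ∧ (∀ z ∈ ball x r, η z = 0) ∧
    (∀ z, z ∉ closedBall x (2 * r) → η z = 1) ∧
    ∀ z, ‖fderiv ℝ η z‖ ≤ (closedBall x (2 * r)).indicator (fun _ => M / r) z := by
  let b : ContDiffBump (0 : ℂ) := ⟨1, 2, one_pos, one_lt_two⟩
  have hb : ContDiff ℝ ∞ b := b.contDiff
  obtain ⟨M, hM⟩ := (hb.continuous_fderiv (by simp)).bounded_above_of_compact_support
    (b.hasCompactSupport.fderiv ℝ)
  refine ⟨M + 1, by have := (norm_nonneg _).trans (hM 0); linarith, fun x r hr => ?_⟩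
  have hA : ∀ z : ℂ, HasFDerivAt (fun z : ℂ => r⁻¹ • (z - x))
      (r⁻¹ • ContinuousLinearMap.id ℝ ℂ) z := fun z =>
    ((hasFDerivAt_id z).sub_const x).const_smul r⁻¹
  have hn : ∀ z : ℂ, ‖r⁻¹ • (z - x)‖ = dist z x / r := fun z => by
    rw [norm_smul, Real.norm_eq_abs, abs_of_pos (inv_pos.2 hr), dist_eq_norm]; field_simp
  have h1 : ∀ z, z ∉ closedBall x (2 * r) → 1 - b (r⁻¹ • (z - x)) = 1 := fun z hz => by
    rw [b.zero_of_le_dist, sub_zero]
    rw [dist_zero_right, hn, le_div_iff₀ hr]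
    exact (not_le.1 (fun h => hz (mem_closedBall.2 h))).le
  refine ⟨fun z => 1 - b (r⁻¹ • (z - x)), ?_, fun z => ?_, fun z hz => ?_, h1, fun z => ?_⟩
  · exact contDiff_const.sub (hb.comp ((contDiff_id.sub contDiff_const).const_smul _))
  · have h2 := b.nonneg (x := r⁻¹ • (z - x))
    have h3 := b.le_one (x := r⁻¹ • (z - x))
    constructor <;> linarith
  · beta_reduce
    rw [b.one_of_mem_closedBall, sub_self]
    rw [mem_closedBall, dist_zero_right, hn, div_le_iff₀ hr]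
    have : b.rIn = 1 := rfl
    rw [this, one_mul]; exact (mem_ball.1 hz).le
  · by_cases hz : z ∈ closedBall x (2 * r)
    · rw [indicator_of_mem hz]
      have h2 := ((hb.differentiable (by simp) (r⁻¹ • (z - x))).hasFDerivAt.comp z (hA z)).const_sub 1
      have h3 : fderiv ℝ (fun z => 1 - b (r⁻¹ • (z - x))) z = _ := h2.fderiv
      rw [h3, norm_neg]
      refine (ContinuousLinearMap.opNorm_comp_le _ _).trans ?_
      rw [norm_smul, Real.norm_eq_abs, abs_of_pos (inv_pos.2 hr), ContinuousLinearMap.norm_id,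
        mul_one, div_eq_mul_inv]
      exact mul_le_mul_of_nonneg_right ((hM _).trans (by linarith)) (inv_pos.2 hr).le
    · rw [indicator_of_notMem hz]
      have h2 : (fun z => 1 - b (r⁻¹ • (z - x))) =ᶠ[𝓝 z] fun _ => (1 : ℝ) := by
        filter_upwards [isClosed_closedBall.isOpen_compl.mem_nhds hz] with w hw using h1 w hw
      rw [h2.fderiv_eq]; simp

theorem vol_closedBall (x : ℂ) {r : ℝ} (hr : 0 ≤ r) :
    volume (closedBall x r) ≤ ENNReal.ofReal (4 * r ^ 2) := by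
  rw [Complex.volume_closedBall, mul_comm 4, ENNReal.ofReal_mul (by positivity),
    ENNReal.ofReal_pow hr]
  gcongr
  rw [← ENNReal.ofReal_coe_nnreal]
  exact ENNReal.ofReal_le_ofReal Real.pi_le_four

/-- Cut-off functions for finitely many disks. -/
theorem many_cut : ∃ M : ℝ, 0 < M ∧ ∀ (x : ℕ → ℂ) (r : ℕ → ℝ), (∀ n, 0 < r n) → ∀ s : Finset ℕ,
    ∃ η : ℂ → ℝ, ContDiff ℝ ∞ η ∧ (∀ z, 0 ≤ η z ∧ η z ≤ 1) ∧
      (∀ z ∈ ⋃ n ∈ s, ball (x n) (r n), η z = 0) ∧
      volume {z | η z ≠ 1} ≤ ENNReal.ofReal (16 * ∑ n ∈ s, r n ^ 2) ∧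
      ∫⁻ z, ‖fderiv ℝ η z‖ₑ ≤ ENNReal.ofReal (M * ∑ n ∈ s, r n) := by
  classical
  obtain ⟨M, hM, H⟩ := one_cut
  refine ⟨16 * M, by positivity, fun x r hr s => ?_⟩
  induction s using Finset.induction_on with
  | empty => exact ⟨fun _ => 1, contDiff_const, fun _ => ⟨zero_le_one, le_rfl⟩, by simp, by simp,
      by simp [← ofReal_norm]⟩
  | insert n s hn ih =>
    obtain ⟨η, h1, h2, h3, h4, h5⟩ := ih
    obtain ⟨θ, k1, k2, k3, k4, k5⟩ := H (x n) (r n) (hr n)
    have hrn := hr n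
    have s1 : 0 ≤ ∑ n ∈ s, r n := Finset.sum_nonneg fun n _ => (hr n).le
    have s2 : 0 ≤ ∑ n ∈ s, r n ^ 2 := Finset.sum_nonneg fun n _ => sq_nonneg _
    have hv := vol_closedBall (x n) (r := 2 * r n) (by positivity)
    refine ⟨fun z => θ z * η z, k1.mul h1, fun z => ⟨mul_nonneg (k2 z).1 (h2 z).1,
      mul_le_one₀ (k2 z).2 (h2 z).1 (h2 z).2⟩, fun z hz => ?_, ?_, ?_⟩
    · rw [Finset.set_biUnion_insert] at hz
      rcases hz with hz | hz
      · simp only [k3 z hz, zero_mul]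
      · simp only [h3 z hz, mul_zero]
    · have : {z | θ z * η z ≠ 1} ⊆ closedBall (x n) (2 * r n) ∪ {z | η z ≠ 1} := fun z hz => by
        by_contra hc
        simp only [mem_union, not_or, mem_ofPred_eq, not_not] at hc
        exact hz (by rw [k4 z hc.1, hc.2, mul_one])
      refine (measure_mono this).trans ((measure_union_le _ _).trans ?_)
      refine (add_le_add hv h4).trans (le_of_eq ?_)
      rw [← ENNReal.ofReal_add (by positivity) (by positivity), Finset.sum_insert hn]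
      congr 1; ring
    · have hb : ∀ z, ‖fderiv ℝ (fun z => θ z * η z) z‖ₑ ≤
          (closedBall (x n) (2 * r n)).indicator (fun _ => ENNReal.ofReal (M / r n)) z +
            ‖fderiv ℝ η z‖ₑ := fun z => by
        rw [fderiv_fun_mul (k1.differentiable (by simp) z) (h1.differentiable (by simp) z)]
        have e1 : ‖θ z • fderiv ℝ η z + η z • fderiv ℝ θ z‖ ≤
            (closedBall (x n) (2 * r n)).indicator (fun _ => M / r n) z + ‖fderiv ℝ η z‖ := by
          refine (norm_add_le _ _).trans ?_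
          rw [norm_smul, norm_smul, Real.norm_eq_abs, Real.norm_eq_abs, abs_of_nonneg (k2 z).1,
            abs_of_nonneg (h2 z).1]
          have a1 := mul_le_of_le_one_left (norm_nonneg (fderiv ℝ η z)) (k2 z).2
          have a2 := mul_le_of_le_one_left (norm_nonneg (fderiv ℝ θ z)) (h2 z).2
          linarith [k5 z]
        rw [← ofReal_norm, ← ofReal_norm]
        refine (ENNReal.ofReal_le_ofReal e1).trans (ENNReal.ofReal_add_le.trans ?_)
        gcongr
        by_cases hz : z ∈ closedBall (x n) (2 * r n)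
        · simp only [indicator_of_mem hz, le_refl]
        · simp only [indicator_of_notMem hz, ENNReal.ofReal_zero, le_refl]
      refine (lintegral_mono hb).trans ?_
      rw [lintegral_add_left (measurable_const.indicator measurableSet_closedBall),
        lintegral_indicator_const measurableSet_closedBall]
      refine (add_le_add (mul_le_mul_right hv _) h5).trans (le_of_eq ?_)
      rw [← ENNReal.ofReal_mul (by positivity), ← ENNReal.ofReal_add (by positivity) (by positivity),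
        Finset.sum_insert hn]
      congr 1; field_simp; ring

/-- Cut-off functions vanishing near a compact set of zero length. -/
theorem cutoff {Z : Set ℂ} (hZ : IsCompact Z) (h0 : μH[1] Z = 0) {ε : ℝ} (hε : 0 < ε) :
    ∃ η : ℂ → ℝ, ContDiff ℝ ∞ η ∧ (∀ z, 0 ≤ η z ∧ η z ≤ 1) ∧ Disjoint (tsupport η) Z ∧
      volume {z | η z ≠ 1} ≤ ENNReal.ofReal ε ∧ ∫⁻ z, ‖fderiv ℝ η z‖ₑ ≤ ENNReal.ofReal ε := by
  obtain ⟨M, hM, H⟩ := many_cut
  obtain ⟨s, x, r, hr, hc, hs⟩ := cover hZ h0 (ε := min 1 (ε / (16 + M))) (by positivity)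
  obtain ⟨η, h1, h2, h3, h4, h5⟩ := H x r hr s
  have s1 : 0 ≤ ∑ n ∈ s, r n := Finset.sum_nonneg fun n _ => (hr n).le
  have s3 : (16 + M) * ∑ n ∈ s, r n ≤ ε := by
    have := hs.trans (min_le_right _ _)
    rwa [le_div_iff₀' (by positivity)] at this
  have s2 : ∑ n ∈ s, r n ^ 2 ≤ ∑ n ∈ s, r n := Finset.sum_le_sum fun n hn => by
    have : r n ≤ 1 := (Finset.single_le_sum (fun n _ => (hr n).le) hn).trans
      (hs.trans (min_le_left _ _))
    nlinarith [hr n]
  refine ⟨η, h1, h2, ?_, h4.trans (ENNReal.ofReal_le_ofReal ?_),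
    h5.trans (ENNReal.ofReal_le_ofReal ?_)⟩
  · rw [Set.disjoint_right]
    intro z hz
    rw [notMem_tsupport_iff_eventuallyEq]
    have ho : IsOpen (⋃ n ∈ s, ball (x n) (r n)) := isOpen_biUnion fun _ _ => isOpen_ball
    filter_upwards [ho.mem_nhds (hc hz)] with w hw using h3 w hw
  · nlinarith
  · nlinarith

end Vale.Agent.N128
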