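import Vale.Agent.P128.MathlibUsed

open MeasureTheory Set Metric

namespace Vale.Agent.N128

/-- The points of `K` all of whose neighbourhoods meet `K` in positive length. -/
def core (K : Set ℂ) : Set ℂ := {x ∈ K | ∀ r > 0, 0 < μH[1] (K ∩ ball x r)}

end Vale.Agent.N128
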