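import Vale.Agent.N128.Sep

/-! Every global minimizer is a reduced global minimizer up to a set of zero length. -/

open MeasureTheory Set Metric Filter
open scoped ENNReal NNReal ContDiff Topology Real

namespace Vale.Agent.N128

open Vale.Agent.P128 Vale.Agent.P128.GM

noncomputable def Fm (m t : ℝ) : ℝ := m * t ^ 2 / (m + t ^ 2)

noncomputable def Dm (m t : ℝ) : ℝ := 2 * m ^ 2 * t / (m + t ^ 2) ^ 2

theorem Fm_deriv {m : ℝ} (hm : 0 < m) (t : ℝ) : HasDerivAt (Fm m) (Dm m t) t := by
  have h := ((hasDerivAt_pow 2 t).const_mul m).fun_div ((hasDerivAt_pow 2 t).const_add m)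
    (by positivity)
  refine HasDerivAt.congr_deriv h ?_
  unfold Dm
  congr 1
  push_cast
  ring

theorem Fm_bd {m : ℝ} (hm : 0 < m) (t : ℝ) :
    0 ≤ Fm m t ∧ Fm m t ≤ m ∧ Fm m t ≤ t ^ 2 ∧ Dm m t ^ 2 ≤ 4 * Fm m t := by
  have h : 0 < m + t ^ 2 := by positivity
  refine ⟨by unfold Fm; positivity, ?_, ?_, ?_⟩
  · rw [Fm, div_le_iff₀ h]; nlinarith
  · rw [Fm, div_le_iff₀ h]; nlinarith [sq_nonneg (t ^ 2)]
  · have e : Dm m t ^ 2 = 4 * Fm m t * (m / (m + t ^ 2)) ^ 3 := by
      unfold Dm Fm; field_simp; ring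
    rw [e]
    refine mul_le_of_le_one_right (by unfold Fm; positivity) (pow_le_one₀ (by positivity) ?_)
    rw [div_le_one h]; nlinarith

theorem Fm_lim (t : ℝ) : Tendsto (fun n : ℕ => Fm (n + 1) t) atTop (𝓝 (t ^ 2)) := by
  have h1 : Tendsto (fun n : ℕ => t ^ 2 / (1 + t ^ 2 * (1 / ((n : ℝ) + 1)))) atTop
      (𝓝 (t ^ 2 / (1 + t ^ 2 * 0))) :=
    tendsto_const_nhds.div
      ((tendsto_one_div_add_atTop_nhds_zero_nat.const_mul _).const_add _) (by simp)
  rw [mul_zero, add_zero, div_one] at h1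
  refine h1.congr fun n => ?_
  unfold Fm; field_simp

theorem sq_loc {V : Set ℂ} (hV : IsOpen V) {x : ℂ} {R : ℝ} (hR : 0 < R)
    (h0 : μH[1] (ball x R \ V) = 0) {u : ℂ → ℝ} {G : ℂ → ℂ} (um : Measurable u)
    (Gm : Measurable G) (hG : MemLp G 2) (hu : ∀ C ⊆ V, IsCompact C → MemLp u 2 (volume.restrict C))
    (h : IsWeakGrad (ball x R ∩ V) u G) :
    ∃ ρ > 0, IntegrableOn (fun z => u z ^ 2) (ball x ρ) := by
  obtain ⟨a, b, ha, hab, hbR, hA⟩ := annulus hV hR h0
  have hGl : LocallyIntegrable G := hG.locallyIntegrable one_le_two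
  have ho := isOpen_ball.inter hV (s := ball x R)
  have hFc : ∀ {m : ℝ}, 0 < m → Continuous (Fm m) := fun hm =>
    continuous_iff_continuousAt.mpr fun t => (Fm_deriv hm t).continuousAt
  have hDc : ∀ {m : ℝ}, 0 < m → Continuous (Dm m) := fun {m} hm => by
    unfold Dm
    exact (by fun_prop : Continuous fun t : ℝ => 2 * m ^ 2 * t).div (by fun_prop)
      fun t => by positivity
  have hFb : ∀ {m : ℝ}, 0 < m → ∀ t, |Fm m t| ≤ m := fun hm t => by
    rw [abs_of_nonneg (Fm_bd hm t).1]; exact (Fm_bd hm t).2.1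
  have hDb : ∀ {m : ℝ}, 0 < m → ∀ t, |Dm m t| ≤ 1 + m := fun {m} hm t =>
    abs_le_of_sq_le_sq' (by nlinarith [(Fm_bd hm t).2.2.2, (Fm_bd hm t).2.1, sq_nonneg (1 - m)])
      (by positivity) |> abs_le.2
  have hl : ∀ {m : ℝ}, 0 < m → LocallyIntegrable fun z => Dm m (u z) • G z := fun {m} hm => by
    refine (hGl.smul (1 + m)).mono ((((hDc hm).measurable.comp um).smul Gm).aestronglyMeasurable)
      (Eventually.of_forall fun z => ?_)
    rw [Pi.smul_apply, norm_smul, norm_smul, Real.norm_eq_abs, Real.norm_eq_abs]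
    exact mul_le_mul_of_nonneg_right ((hDb hm _).trans (le_abs_self _)) (norm_nonneg _)
  have hw : ∀ {m : ℝ}, 0 < m → IsWeakGrad (ball x R) (fun z => Fm m (u z))
      fun z => Dm m (u z) • G z := fun {m} hm => by
    refine remov_bdd ho (by rwa [sdiff_self_inter])
      ((hFc hm).measurable.comp um).aestronglyMeasurable (fun z => hFb hm (u z)) (hl hm) ?_
    refine isWeakGrad_of_local ho fun W hW hc hWU => ?_
    have i1 : Integrable (W.indicator u) := (integrable_indicator_iff hW.measurableSet).2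
      ((integrableOn_of_memLp (hu _ (hWU.trans inter_subset_right) hc) Subset.rfl hc).mono_set
        subset_closure)
    have i2 : IsWeakGrad W (W.indicator u) G := (h.mono (subset_closure.trans hWU)).congr_on
      hW.measurableSet (fun z hz => by rw [indicator_of_mem hz]) fun _ _ => rfl
    exact (i2.chain hW i1.locallyIntegrable Gm hGl (Fm_deriv hm) (hDc hm) (hFb hm)
      (hDb hm)).congr_on hW.measurableSet (fun z hz => by simp only [indicator_of_mem hz])
      fun z hz => by simp only [indicator_of_mem hz]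
  let η : ContDiffBump x := ⟨a, b, ha, hab⟩
  have hη : ContDiff ℝ ∞ η := η.contDiff
  have hX : ContDiff ℝ ∞ fun z : ℂ => (z - x).re :=
    Complex.reCLM.contDiff.comp (contDiff_id.sub contDiff_const)
  have hdX : ∀ z : ℂ, fderiv ℝ (fun z : ℂ => (z - x).re) z 1 = 1 := fun z => by
    have := (Complex.reCLM.hasFDerivAt.comp z ((hasFDerivAt_id z).sub_const x)).fderiv
    have e : fderiv ℝ (fun z : ℂ => (z - x).re) z = _ := this
    rw [e]; simp
  have hd : ∀ z, fderiv ℝ (fun z => η z * (z - x).re) z 1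
      = η z + (z - x).re * fderiv ℝ η z 1 := fun z => by
    rw [fderiv_fun_mul (hη.differentiable (by simp) z) (hX.differentiable (by simp) z)]
    simp only [add_apply, smul_apply, hdX, smul_eq_mul,
      mul_one]
  have hc1 : Continuous fun z => (z - x).re * fderiv ℝ η z 1 :=
    hX.continuous.mul ((hη.continuous_fderiv (by simp)).clm_apply continuous_const)
  have hs1 : HasCompactSupport fun z => (z - x).re * fderiv ℝ η z 1 :=
    (η.hasCompactSupport.fderiv_apply ℝ 1).mul_left
  have j1 : Integrable fun z => ‖G z‖ ^ 2 * (η z * (z - x).re ^ 2) :=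
    integrable_mul_cc ((memLp_two_iff_integrable_sq_norm hG.1).1 hG).locallyIntegrable
      (hη.continuous.mul (hX.continuous.pow 2)) η.hasCompactSupport.mul_right
  have j2 : Integrable fun z => u z ^ 2 * |(z - x).re * fderiv ℝ η z 1| := by
    have k1 : IsCompact (closedBall x b \ ball x a) := (isCompact_closedBall _ _).diff isOpen_ball
    have k2 := hu _ (fun z hz => hA z (not_lt.1 hz.2) hz.1) k1
    refine (IntegrableOn.mul_continuousOn k2.integrable_sq hc1.abs.continuousOn
      k1).integrable_of_forall_notMem_eq_zero fun z hz => ?_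
    have : fderiv ℝ η z = 0 := by
      by_cases h1 : z ∈ ball x a
      · rw [(η.eventuallyEq_one_of_mem_ball h1).fderiv_eq]; exact fderiv_const_apply 1
      · by_contra h2
        have := support_fderiv_subset ℝ (f := η) h2
        rw [η.tsupport_eq] at this
        exact hz ⟨this, h1⟩
    simp [this]
  set J : ℝ := ∫ z, (4 * (‖G z‖ ^ 2 * (η z * (z - x).re ^ 2)) +
    2 * (u z ^ 2 * |(z - x).re * fderiv ℝ η z 1|)) with hJ
  have key : ∀ {m : ℝ}, 0 < m →
      ∫⁻ z, ENNReal.ofReal (Fm m (u z) * η z) ≤ ENNReal.ofReal J := fun {m} hm => by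
    have l1 := li_bdd ((hFc hm).measurable.comp um).aestronglyMeasurable fun z => hFb hm (u z)
    have e := (hw hm).test (hη.mul hX) η.hasCompactSupport.mul_right
      (tsupport_mul_subset_left.trans (by rw [η.tsupport_eq]; exact closedBall_subset_ball hbR)) 1
    have i1 : Integrable fun z => Fm m (u z) * η z :=
      integrable_mul_cc l1 hη.continuous η.hasCompactSupport
    have i2 : Integrable fun z => Fm m (u z) * ((z - x).re * fderiv ℝ η z 1) :=
      integrable_mul_cc l1 hc1 hs1
    have i3 : Integrable fun z => inner ℝ (Dm m (u z) • G z) 1 * (η z * (z - x).re) :=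
      integrable_mul_cc (locallyIntegrable_inner (hl hm) 1) (hη.continuous.mul hX.continuous)
        η.hasCompactSupport.mul_right
    simp only [hd, mul_add] at e
    rw [integral_add i1 i2] at e
    rw [← ofReal_integral_eq_lintegral_ofReal i1 (Eventually.of_forall fun z =>
      mul_nonneg (Fm_bd hm _).1 η.nonneg)]
    refine ENNReal.ofReal_le_ofReal ?_
    have i0 : Integrable fun z => -(Fm m (u z) * η z) := i1.neg
    have i4 : Integrable fun z => -(Fm m (u z) * η z) - 2 * (Fm m (u z) * ((z - x).re *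
      fderiv ℝ η z 1)) := i1.neg.sub (i2.const_mul 2)
    have e2 : ∫ z, Fm m (u z) * η z = ∫ z, (-(Fm m (u z) * η z) - 2 * (Fm m (u z) * ((z - x).re *
        fderiv ℝ η z 1)) - 2 * (inner ℝ (Dm m (u z) • G z) 1 * (η z * (z - x).re))) := by
      rw [integral_sub i4 (i3.const_mul 2), integral_sub i0 (i2.const_mul 2), integral_neg,
        integral_const_mul, integral_const_mul]
      linarith only [e]
    rw [e2]
    refine integral_mono (i4.sub (i3.const_mul 2)) ((j1.const_mul 4).add (j2.const_mul 2))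
      fun z => ?_
    obtain ⟨b1, -, b2, b3⟩ := Fm_bd hm (u z)
    have b4 : inner ℝ (G z) (1 : ℂ) ^ 2 ≤ ‖G z‖ ^ 2 := by
      have := norm_inner_le' (G z) 1
      rw [norm_one, mul_one] at this
      exact sq_le_sq' (abs_le.1 this).1 (abs_le.1 this).2
    have b5 : -(Fm m (u z) * ((z - x).re * fderiv ℝ η z 1)) ≤
        u z ^ 2 * |(z - x).re * fderiv ℝ η z 1| := by
      rw [← mul_neg]
      exact (mul_le_mul_of_nonneg_left (neg_le_abs _) b1).trans
        (mul_le_mul_of_nonneg_right b2 (abs_nonneg _))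
    have b6 : -(Fm m (u z)) - 2 * (Dm m (u z) * inner ℝ (G z) (1 : ℂ) * (z - x).re) ≤
        4 * (‖G z‖ ^ 2 * (z - x).re ^ 2) := by
      nlinarith [sq_nonneg (Dm m (u z) + 4 * (inner ℝ (G z) (1 : ℂ) * (z - x).re)),
        mul_le_mul_of_nonneg_right b4 (sq_nonneg (z - x).re)]
    have b7 := mul_le_mul_of_nonneg_left b6 (η.nonneg (x := z))
    simp only [inner_smul_left, conj_trivial]
    nlinarith only [b5, b7]
  have fin : ∫⁻ z, ENNReal.ofReal (u z ^ 2 * η z) ≤ ENNReal.ofReal J := by
    have e : ∀ z, ENNReal.ofReal (u z ^ 2 * η z) =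
        liminf (fun n : ℕ => ENNReal.ofReal (Fm (n + 1) (u z) * η z)) atTop := fun z =>
      (ENNReal.tendsto_ofReal ((Fm_lim (u z)).mul_const _)).liminf_eq.symm
    simp only [e]
    refine (lintegral_liminf_le fun n => (((hFc (by positivity)).measurable.comp um).mul
      hη.continuous.measurable).ennreal_ofReal).trans ?_
    exact liminf_le_of_frequently_le' (Frequently.of_forall fun n => key (by positivity))
  have i5 : Integrable fun z => u z ^ 2 * η z :=
    ⟨((um.pow_const 2).mul hη.continuous.measurable).aestronglyMeasurable,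
      (hasFiniteIntegral_iff_ofReal (Eventually.of_forall fun z =>
        mul_nonneg (sq_nonneg _) η.nonneg)).2 (fin.trans_lt ENNReal.ofReal_lt_top)⟩
  exact ⟨a, ha, i5.integrableOn.congr_fun (fun z hz => by
    simp only [η.one_of_mem_closedBall (ball_subset_closedBall hz), mul_one]) measurableSet_ball⟩

theorem w12_drop {U V : Set ℂ} (hU : IsOpen U) (hV : IsOpen V) (h0 : μH[1] (U \ V) = 0)
    {u : ℂ → ℝ} {G : ℂ → ℂ} (h : W12loc V u G)
    (hG : ∀ x r, ∫⁻ z in ball x r ∩ V, ENNReal.ofReal (‖G z‖ ^ 2) < ⊤) : W12loc U u G := by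
  have hv0 : volume (U \ V) = 0 := volume_eq_zero_of_hausdorff (h0.trans_ne ENNReal.zero_ne_top)
  have hle : ∀ C ⊆ U, volume.restrict C ≤ volume.restrict V := fun C hC =>
    Measure.restrict_mono_ae (ae_le_set.2 (measure_mono_null (sdiff_subset_sdiff_left hC) hv0))
  have mu : AEStronglyMeasurable u (volume.restrict V) :=
    ((locallyIntegrableOn_iff hV.isLocallyClosed).2 fun C h1 h2 =>
      integrableOn_of_memLp (h.memLp C h2 h1) Subset.rfl h2).aestronglyMeasurable
  have mG : AEStronglyMeasurable G (volume.restrict V) :=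
    ((locallyIntegrableOn_iff hV.isLocallyClosed).2 fun C h1 h2 =>
      integrableOn_of_memLp (h.grad_memLp C h2 h1) Subset.rfl h2).aestronglyMeasurable
  have g1 : ∀ x r, MemLp G 2 (volume.restrict (ball x r ∩ V)) := fun x r => by
    have m1 := mG.mono_measure (Measure.restrict_mono (inter_subset_right (s := ball x r)) le_rfl)
    exact (memLp_two_iff_integrable_sq_norm m1).2 ⟨m1.norm.pow 2,
      (hasFiniteIntegral_iff_ofReal (Eventually.of_forall fun z => sq_nonneg _)).2 (hG x r)⟩
  have g2 : ∀ C, IsCompact C → C ⊆ U → MemLp G 2 (volume.restrict C) := fun C h1 h2 => by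
    obtain ⟨r, hr⟩ := h1.isBounded.subset_ball 0
    refine (g1 0 r).mono_measure (Measure.restrict_mono_ae (ae_le_set.2
      (measure_mono_null (fun z hz => ?_) hv0)))
    exact ⟨h2 hz.1, fun h3 => hz.2 ⟨hr hz.1, h3⟩⟩
  have u1 : LocallyIntegrableOn (fun z => u z ^ 2) U := fun x hx => by
    obtain ⟨R, hR, hb⟩ := Metric.isOpen_iff.1 hU x hx
    have ms := (isOpen_ball.inter hV (s := ball x R)).measurableSet
    have e1 := (g1 x R).1.ae_eq_mk
    have e2 : G =ᵐ[volume.restrict (ball x R ∩ V)] (ball x R ∩ V).indicator ((g1 x R).1.mk G) := by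
      filter_upwards [e1, ae_restrict_mem ms] with z h1 h2
      rw [indicator_of_mem h2, h1]
    obtain ⟨ρ, hρ, hi⟩ := sq_loc hV hR (measure_mono_null (sdiff_subset_sdiff_left hb) h0)
      mu.stronglyMeasurable_mk.measurable
      ((g1 x R).1.stronglyMeasurable_mk.measurable.indicator ms)
      ((memLp_indicator_iff_restrict ms).2 ((g1 x R).ae_eq e1))
      (fun C h1 h2 => (h.memLp C h2 h1).ae_eq
        (ae_mono (Measure.restrict_mono h1 le_rfl) mu.ae_eq_mk))
      ((h.weak.mono inter_subset_right).congr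
        (ae_mono (Measure.restrict_mono inter_subset_right le_rfl) mu.ae_eq_mk) e2)
    refine ⟨U ∩ ball x ρ, inter_mem_nhdsWithin _ (ball_mem_nhds x hρ),
      (hi.mono_set inter_subset_right).congr ?_⟩
    filter_upwards [ae_mono (hle _ inter_subset_left) mu.ae_eq_mk] with z hz
    rw [hz]
  have u2 : ∀ C, IsCompact C → C ⊆ U → MemLp u 2 (volume.restrict C) := fun C h1 h2 =>
    (memLp_two_iff_integrable_sq (mu.mono_measure (hle C h2))).2
      (u1.integrableOn_compact_subset h2 h1)
  exact ⟨u2, g2, remov hU hV h0 (fun C h1 h2 => integrableOn_of_memLp (u2 C h2 h1) Subset.rfl h2)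
    (fun C h1 h2 => integrableOn_of_memLp (g2 C h2 h1) Subset.rfl h2) h.weak⟩

theorem glob_drop {K K' : Set ℂ} {u : ℂ → ℝ} {G : ℂ → ℂ} (h : IsGlobalMin u G K) (hs : K' ⊆ K)
    (hc : IsClosed K') (h0 : μH[1] (K \ K') = 0) : IsGlobalMin u G K' := by
  have e0 := ae_of_null hs h0
  have h1 : μH[1] (K'ᶜ \ Kᶜ) = 0 := by rwa [compl_sdiff_compl]
  refine ⟨hc, w12_drop hc.isOpen_compl h.closed.isOpen_compl h1 h.sobolev fun x r =>
    le_self_add.trans_lt (h.finite x r), fun x r => genergy_congr e0 G _ ▸ h.finite x r,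
    fun x r v H L hL hv ⟨C, c1, c2, c3, c4⟩ hsep => ?_⟩
  obtain ⟨D, d1, d2, d3⟩ := exists_compact_between c1 isOpen_ball c2
  obtain ⟨e1, e2⟩ := add_null hs h0 c3 d2
  rw [← genergy_congr e0, ← genergy_congr e1]
  have k : (L ∪ K \ interior D)ᶜ ⊆ Lᶜ := compl_subset_compl.2 subset_union_left
  refine h.minimal x r v H _ (hL.union (h.closed.sdiff isOpen_interior))
    ⟨fun C h1 h2 => hv.memLp C h1 (h2.trans k), fun C h1 h2 => hv.grad_memLp C h1 (h2.trans k),
      hv.weak.mono k⟩
    ⟨D, d1, d3, e2.trans interior_subset, ?_⟩ fun p q hp hq hpq hm => ?_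
  · filter_upwards [c4] with z hz hz' using hz fun h1 => hz' (interior_subset (d2 h1))
  · have hu := union_subset_union_right (ball x r) hs
    refine hsep p q (fun h2 => hp (hu h2)) (fun h2 => hq (hu h2)) (fun h2 => hpq ?_)
      (connectedComponentIn_mono _ (compl_subset_compl.2 subset_union_left) hm)
    exact comp_null hc.isOpen_compl h.closed.isOpen_compl h1 (fun h3 => hp (Or.inr h3))
      (fun h3 => hq (Or.inr h3)) h2

theorem core_glob {K : Set ℂ} {u : ℂ → ℝ} {G : ℂ → ℂ} (h : IsGlobalMin u G K) :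
    IsGlobalMin u G (core K) :=
  glob_drop h (core_subset K) (isClosed_of_closure_subset fun _ hz =>
    core_closed (h.closed.closure_subset (closure_mono (core_subset K) hz)) hz) (null_core K)

end Vale.Agent.N128
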