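import Vale.Agent.N128.Loc

/-! The reduced singular set of a minimizer is determined by the function. -/

open MeasureTheory Set Metric Filter
open scoped ENNReal NNReal ContDiff Topology Real

namespace Vale.Agent.N128

open Vale.Agent.P128

theorem patch {A B W : Set ℂ} {u : ℂ → ℝ} {G : ℂ → ℂ} (hu : LocallyIntegrable u)
    (hG : LocallyIntegrable G) (hA : IsWeakGrad A u G) (hB : IsWeakGrad B u G) {χ : ℂ → ℝ}
    (hχ : ContDiff ℝ ∞ χ) (h1 : tsupport χ ⊆ B) (h2 : ∀ z ∈ W, z ∉ A → χ =ᶠ[𝓝 z] 1) :
    IsWeakGrad W u G := by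
  refine isWeakGrad_of_test fun φ k1 k2 k3 v => ?_
  have a1 : ContDiff ℝ ∞ fun z => χ z * φ z := hχ.mul k1
  have a2 : ContDiff ℝ ∞ fun z => (1 - χ z) * φ z := (contDiff_const.sub hχ).mul k1
  have b1 : HasCompactSupport fun z => χ z * φ z := k2.mul_left
  have b2 : HasCompactSupport fun z => (1 - χ z) * φ z := k2.mul_left
  have e1 := hB.test a1 b1 (tsupport_mul_subset_left.trans h1) v
  have e2 := hA.test a2 b2 (fun z hz => by_contra fun h => by
    refine notMem_tsupport_iff_eventuallyEq.2 ?_ hz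
    filter_upwards [h2 z (k3 (tsupport_mul_subset_right hz)) h] with w hw
    simp [hw]) v
  have hc : ∀ {f : ℂ → ℝ}, ContDiff ℝ ∞ f → Continuous fun z => fderiv ℝ f z v := fun hf =>
    (hf.continuous_fderiv (by simp)).clm_apply continuous_const
  have hd : ∀ z, fderiv ℝ φ z v = fderiv ℝ (fun z => χ z * φ z) z v +
      fderiv ℝ (fun z => (1 - χ z) * φ z) z v := fun z => by
    rw [← add_apply, ← fderiv_fun_add (a1.differentiable (by simp) z)
      (a2.differentiable (by simp) z)]
    congr 2
    funext w; ring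
  have hφ : ∀ z, φ z = χ z * φ z + (1 - χ z) * φ z := fun z => by ring
  have e3 : ∫ z, inner ℝ (G z) v * φ z = (∫ z, inner ℝ (G z) v * (χ z * φ z)) +
      ∫ z, inner ℝ (G z) v * ((1 - χ z) * φ z) := by
    rw [← integral_add (integrable_mul_cc (locallyIntegrable_inner hG v) a1.continuous b1)
      (integrable_mul_cc (locallyIntegrable_inner hG v) a2.continuous b2)]
    exact integral_congr_ae (Eventually.of_forall fun z => by simp only; ring)
  simp only [hd, mul_add]
  rw [integral_add (integrable_mul_cc hu (hc a1) (b1.fderiv_apply ℝ v))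
    (integrable_mul_cc hu (hc a2) (b2.fderiv_apply ℝ v)), e1, e2, e3]
  ring

theorem w12_of_adm {Ω K U : Set ℂ} {u : ℂ → ℝ} {G : ℂ → ℂ} (h : Admissible Ω u G K)
    (hU : U ⊆ Ω \ K) : GM.W12loc U u G :=
  ⟨fun _ _ h2 => h.memLp.mono_measure
      (Measure.restrict_mono (h2.trans (hU.trans sdiff_subset)) le_rfl),
    fun _ _ h2 => h.grad_memLp.mono_measure (Measure.restrict_mono (h2.trans hU) le_rfl),
    h.weak.mono hU⟩

theorem core_least {Ω K L : Set ℂ} {g u : ℂ → ℝ} {G H : ℂ → ℂ} (hΩ : IsOpen Ω)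
    (hg : MemLp g ⊤ (volume.restrict Ω)) (h : IsMinimizer Ω g u G K) (hL : Admissible Ω u H L) :
    core K ⊆ L := fun x hx => by
  by_contra hxL
  obtain ⟨R, hR, hb⟩ := Metric.isOpen_iff.1 (hL.isOpen_diff hΩ) x ⟨h.1.subset hx.1, hxL⟩
  have hK0 : volume K = 0 := GM.volume_eq_zero_of_hausdorff h.1.finite.ne
  have hKm := h.1.measurableSet hΩ
  have ho := (isOpen_ball (x := x) (ε := R)).inter (h.1.isOpen_diff hΩ)
  have hGH := GM.clUniq ho (w12_of_adm h.1 inter_subset_right)
    (w12_of_adm hL (inter_subset_left.trans hb)) (Eventually.of_forall fun _ _ => rfl)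
  have hB : IsWeakGrad (ball x R) u G := by
    refine (hL.weak.mono hb).congr (ae_eq_refl _) ((ae_restrict_iff' measurableSet_ball).2 ?_)
    filter_upwards [hGH, measure_eq_zero_iff_ae_notMem.1 hK0] with z h1 h2 h3
    exact (h1 ⟨h3, (hb h3).1, h2⟩).symm
  set K' := K \ ball x (R / 4) with hK'
  have hae : K =ᵐ[volume] K' := ae_eq_set.2 ⟨measure_mono_null sdiff_subset hK0,
    measure_mono_null (sdiff_subset.trans sdiff_subset) hK0⟩
  have hG : MemLp G 2 (volume.restrict (Ω \ K')) := by
    rw [← Measure.restrict_congr_set ((ae_eq_refl Ω).diff hae)]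
    exact h.1.grad_memLp
  have hm : MeasurableSet (Ω \ K') := hΩ.measurableSet.diff (hKm.diff measurableSet_ball)
  have s1 : Ω \ K ⊆ Ω \ K' := sdiff_subset_sdiff_right sdiff_subset
  have hw : IsWeakGrad (Ω \ K') u G := by
    have i1 := ((memLp_indicator_iff_restrict hΩ.measurableSet).2 h.1.memLp).locallyIntegrable
      one_le_two
    have i2 := ((memLp_indicator_iff_restrict hΩ.measurableSet).2 (by
      rw [← Measure.restrict_congr_set (sdiff_null_ae_eq_self hK0)]
      exact h.1.grad_memLp : MemLp G 2 (volume.restrict Ω))).locallyIntegrable one_le_two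
    have c : ∀ {S : Set ℂ}, MeasurableSet S → S ⊆ Ω → IsWeakGrad S u G →
        IsWeakGrad S (Ω.indicator u) (Ω.indicator G) := fun m s w =>
      w.congr_on m (fun z hz => by rw [indicator_of_mem (s hz)])
        fun z hz => by rw [indicator_of_mem (s hz)]
    let η : ContDiffBump x := ⟨R / 4, R / 2, by positivity, by linarith⟩
    refine (patch i1 i2 (c (hΩ.measurableSet.diff hKm) sdiff_subset h.1.weak)
      (c measurableSet_ball (hb.trans sdiff_subset) hB) (η.contDiff (n := ⊤)) ?_
      fun z hz hz' => η.eventuallyEq_one_of_mem_ball ?_).congr_on hm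
      (fun z hz => by rw [indicator_of_mem hz.1]) fun z hz => by rw [indicator_of_mem hz.1]
    · rw [η.tsupport_eq]; exact closedBall_subset_ball (half_lt_self hR)
    · exact by_contra fun h1 => hz.2 ⟨by_contra fun h2 => hz' ⟨hz.1, h2⟩, h1⟩
  have hadm : Admissible Ω u G K' := ⟨sdiff_subset.trans h.1.subset, fun z hz =>
    ⟨h.1.relClosed ⟨hz.1, closure_mono sdiff_subset hz.2⟩,
      closure_minimal (fun y hy => hy.2) isOpen_ball.isClosed_compl hz.2⟩,
    (measure_mono sdiff_subset).trans_lt h.1.finite, h.1.memLp, hG, hw⟩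
  have hV : closure (ball x (R / 2)) ⊆ Ω := closure_ball_subset_closedBall.trans
    ((closedBall_subset_ball (half_lt_self hR)).trans (hb.trans sdiff_subset))
  have hV' := subset_closure.trans hV
  have key := h.2 (ball x (R / 2)) isOpen_ball
    ((isCompact_closedBall x (R / 2)).of_isClosed_subset isClosed_closure
      closure_ball_subset_closedBall) hV u G K' hadm
    ⟨closedBall x (R / 4), isCompact_closedBall _ _, closedBall_subset_ball (by linarith), by
      rintro z (⟨h1, h2⟩ | ⟨h1, h2⟩)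
      · exact absurd h1.1 h2
      · exact ball_subset_closedBall (by_contra fun h3 => h2 ⟨h1, h3⟩),
      Eventually.of_forall fun _ _ => rfl⟩
  unfold energy at key
  rw [← setLIntegral_congr ((ae_eq_refl _).diff hae)] at key
  have : IsFiniteMeasure (volume.restrict (ball x (R / 2)) : Measure ℂ) :=
    ⟨by rw [Measure.restrict_apply_univ]; exact measure_ball_lt_top⟩
  have f1 : ∫⁻ z in ball x (R / 2), ENNReal.ofReal ((u z - g z) ^ 2) < ⊤ :=
    ((h.1.memLp.mono_measure (Measure.restrict_mono hV' le_rfl)).sub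
      ((hg.mono_measure (Measure.restrict_mono hV' le_rfl)).mono_exponent
        le_top)).integrable_sq.lintegral_lt_top
  have f2 : ∫⁻ z in ball x (R / 2) \ K, ENNReal.ofReal (‖G z‖ ^ 2) < ⊤ := by
    have m := h.1.grad_memLp.mono_measure
      (Measure.restrict_mono (sdiff_subset_sdiff_left (t := K) hV') le_rfl)
    exact ((memLp_two_iff_integrable_sq_norm m.1).1 m).lintegral_lt_top
  rw [ENNReal.add_le_add_iff_right f1.ne, ENNReal.add_le_add_iff_left f2.ne] at key
  have e := measure_inter_add_sdiff (μ := μH[1]) (K ∩ ball x (R / 2))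
    (measurableSet_ball (x := x) (ε := R / 4))
  have e1 : (K ∩ ball x (R / 2)) \ ball x (R / 4) = K' ∩ ball x (R / 2) := by
    rw [hK', sdiff_inter_right_comm]
  have e2 : K ∩ ball x (R / 2) ∩ ball x (R / 4) = K ∩ ball x (R / 4) := by
    rw [inter_assoc, inter_eq_self_of_subset_right (ball_subset_ball (by linarith))]
  rw [e1, e2] at e
  rw [← e] at key
  have f3 : μH[1] (K' ∩ ball x (R / 2)) ≠ ⊤ :=
    ((measure_mono inter_subset_left).trans_lt hadm.finite).ne
  rw [add_comm] at key
  exact absurd key (not_le.2 (ENNReal.lt_add_right f3 (hx.2 _ (by positivity)).ne'))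

end Vale.Agent.N128
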