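import Vale.Agent.N128.Remove
import Vale.Agent.N128.Defs

/-! Every minimizer is a reduced minimizer up to a set of zero length. -/

open MeasureTheory Set Metric Filter
open scoped ENNReal NNReal ContDiff Topology Real

namespace Vale.Agent.N128

open Vale.Agent.P128

theorem core_subset (K : Set ℂ) : core K ⊆ K := fun _ h => h.1

theorem null_core (K : Set ℂ) : μH[1] (K \ core K) = 0 := by
  refine measure_null_of_locally_null _ fun x hx => ?_
  have h := hx.2
  simp only [core, mem_ofPred_eq, not_and, not_forall, not_lt, nonpos_iff_eq_zero] at h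
  obtain ⟨r, hr, h0⟩ := h hx.1
  exact ⟨_, inter_mem_nhdsWithin _ (ball_mem_nhds x hr),
    measure_mono_null (inter_subset_inter_left _ sdiff_subset) h0⟩

theorem core_closed {K : Set ℂ} {x : ℂ} (hx : x ∈ K) (h : x ∈ closure (core K)) : x ∈ core K := by
  refine ⟨hx, fun r hr => ?_⟩
  obtain ⟨y, hy, hy'⟩ := _root_.mem_closure_iff.1 h _ isOpen_ball (mem_ball_self hr)
  obtain ⟨s, hs, hs'⟩ := Metric.isOpen_iff.1 isOpen_ball y hy
  exact (hy'.2 s hs).trans_le (measure_mono (inter_subset_inter_right _ hs'))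

theorem ae_of_null {K K' : Set ℂ} (h : K' ⊆ K) (h0 : μH[1] (K \ K') = 0) : K =ᵐ[μH[1]] K' :=
  ae_eq_set.2 ⟨h0, by rw [sdiff_eq_empty.2 h, measure_empty]⟩

theorem vol_of_ae {K K' : Set ℂ} (h : K =ᵐ[μH[1]] K') : K =ᵐ[volume] K' := by
  rw [ae_eq_set] at h ⊢
  exact ⟨GM.volume_eq_zero_of_hausdorff (h.1.trans_ne ENNReal.zero_ne_top),
    GM.volume_eq_zero_of_hausdorff (h.2.trans_ne ENNReal.zero_ne_top)⟩

theorem core_reduced (Ω K : Set ℂ) : IsReduced Ω (core K) := fun x hx r hr _ => by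
  exact (hx.2 r hr).trans_eq
    (measure_congr ((ae_of_null (core_subset K) (null_core K)).inter (ae_eq_refl (ball x r))))

theorem genergy_congr {K K' : Set ℂ} (h : K =ᵐ[μH[1]] K') (G : ℂ → ℂ) (V : Set ℂ) :
    GM.genergy G K V = GM.genergy G K' V := by
  unfold GM.genergy
  rw [measure_congr (h.inter (ae_eq_refl V)),
    setLIntegral_congr ((ae_eq_refl V).diff (vol_of_ae h))]

theorem energy_congr' {K K' : Set ℂ} (h : K =ᵐ[μH[1]] K') (g u : ℂ → ℝ) (G : ℂ → ℂ) (V : Set ℂ) :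
    energy g u G K V = energy g u G K' V :=
  congrArg (· + ∫⁻ z in V, ENNReal.ofReal ((u z - g z) ^ 2)) (genergy_congr h G V)

theorem integrableOn_of_memLp {E : Type*} [NormedAddCommGroup E] {f : ℂ → E} {U C : Set ℂ}
    (hf : MemLp f 2 (volume.restrict U)) (hC : C ⊆ U) (hc : IsCompact C) : IntegrableOn f C := by
  have : IsFiniteMeasure (volume.restrict C : Measure ℂ) :=
    ⟨by rw [Measure.restrict_apply_univ]; exact hc.measure_lt_top⟩
  exact (hf.mono_measure (Measure.restrict_mono hC le_rfl)).integrable one_le_two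

theorem adm_drop {Ω K K' : Set ℂ} {u : ℂ → ℝ} {G : ℂ → ℂ} (hΩ : IsOpen Ω)
    (h : Admissible Ω u G K) (hs : K' ⊆ K) (hc : Ω ∩ closure K' ⊆ K') (h0 : μH[1] (K \ K') = 0) :
    Admissible Ω u G K' := by
  have hG : MemLp G 2 (volume.restrict (Ω \ K')) := by
    rw [← Measure.restrict_congr_set ((ae_eq_refl Ω).diff (vol_of_ae (ae_of_null hs h0)))]
    exact h.grad_memLp
  have ho : IsOpen (Ω \ K') := by
    have : Ω \ K' = Ω ∩ (closure K')ᶜ := Subset.antisymm
      (fun z hz => ⟨hz.1, fun h3 => hz.2 (hc ⟨hz.1, h3⟩)⟩)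
      fun z hz => ⟨hz.1, fun h3 => hz.2 (subset_closure h3)⟩
    rw [this]
    exact hΩ.inter isClosed_closure.isOpen_compl
  refine ⟨hs.trans h.subset, hc, (measure_mono hs).trans_lt h.finite, h.memLp, hG,
    remov ho (h.isOpen_diff hΩ) (measure_mono_null (fun z hz => ?_) h0)
      (fun C hC hk => integrableOn_of_memLp h.memLp (hC.trans sdiff_subset) hk)
      (fun C hC hk => integrableOn_of_memLp hG hC hk) h.weak⟩
  exact ⟨by_contra fun h1 => hz.2 ⟨hz.1.1, h1⟩, hz.1.2⟩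

/-- Adding to the competitor the part of the null set which lies outside `W`. -/
theorem add_null {K K' L C W : Set ℂ} (hs : K' ⊆ K) (h0 : μH[1] (K \ K') = 0)
    (hL : symmDiff L K' ⊆ C) (hCW : C ⊆ W) :
    (L ∪ K \ W : Set ℂ) =ᵐ[μH[1]] L ∧ symmDiff (L ∪ K \ W) K ⊆ W := by
  constructor
  · refine ae_of_null subset_union_left (measure_mono_null (fun z hz => ?_) h0)
    have h1 := hz.1.resolve_left hz.2
    exact ⟨h1.1, fun h2 => h1.2 (hCW (hL (Or.inr ⟨h2, hz.2⟩)))⟩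
  · rintro z (⟨h1 | h1, h2⟩ | ⟨h1, h2⟩)
    · exact hCW (hL (Or.inl ⟨h1, fun h3 => h2 (hs h3)⟩))
    · exact absurd h1.1 h2
    · exact by_contra fun h3 => h2 (Or.inr ⟨h1, h3⟩)

theorem min_drop {Ω K K' : Set ℂ} {g u : ℂ → ℝ} {G : ℂ → ℂ} (hΩ : IsOpen Ω)
    (h : IsMinimizer Ω g u G K) (hs : K' ⊆ K) (hc : Ω ∩ closure K' ⊆ K')
    (h0 : μH[1] (K \ K') = 0) : IsMinimizer Ω g u G K' := by
  refine ⟨adm_drop hΩ h.1 hs hc h0, fun V hV hVc hVΩ w H L hL ⟨C, c1, c2, c3, c4⟩ => ?_⟩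
  obtain ⟨D, d1, d2, d3⟩ := exists_compact_between c1 hV c2
  obtain ⟨e1, e2⟩ := add_null hs h0 c3 d2
  rw [← energy_congr' (ae_of_null hs h0), ← energy_congr' e1]
  refine h.2 V hV hVc hVΩ w H _ ⟨union_subset hL.subset (sdiff_subset.trans h.1.subset), ?_, ?_,
    hL.memLp, hL.grad_memLp.mono_measure (Measure.restrict_mono
      (sdiff_subset_sdiff_right subset_union_left) le_rfl),
    hL.weak.mono (sdiff_subset_sdiff_right subset_union_left)⟩
    ⟨D, d1, d3, e2.trans interior_subset, ?_⟩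
  · rw [closure_union]
    rintro z ⟨h1, h2 | h2⟩
    · exact Or.inl (hL.relClosed ⟨h1, h2⟩)
    · exact Or.inr ⟨h.1.relClosed ⟨h1, closure_mono sdiff_subset h2⟩,
        closure_minimal (fun y hy => hy.2) isOpen_interior.isClosed_compl h2⟩
  · rw [measure_congr e1]; exact hL.finite
  · filter_upwards [c4] with z hz hz' using hz fun h1 => hz' (interior_subset (d2 h1))

theorem core_min {Ω K : Set ℂ} {g u : ℂ → ℝ} {G : ℂ → ℂ} (hΩ : IsOpen Ω)
    (h : IsMinimizer Ω g u G K) : IsMinimizer Ω g u G (core K) :=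
  min_drop hΩ h (core_subset K)
    (fun _ hz => core_closed (h.1.relClosed ⟨hz.1, closure_mono (core_subset K) hz.2⟩) hz.2)
    (null_core K)

end Vale.Agent.N128
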