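import Vale.Agent.N128.Cut

/-! Relatively closed sets of zero length are removable for Sobolev functions. -/

open MeasureTheory Set Metric Filter
open scoped ENNReal NNReal ContDiff Topology Real

namespace Vale.Agent.N128

open Vale.Agent.P128

theorem li_bdd {w : ℂ → ℝ} (hw : AEStronglyMeasurable w) {m : ℝ} (hm : ∀ z, |w z| ≤ m) :
    LocallyIntegrable w :=
  (memLp_top_of_bound hw m (Eventually.of_forall hm)).locallyIntegrable le_top

theorem remov_bdd {U V : Set ℂ} (hV : IsOpen V) (h0 : μH[1] (U \ V) = 0) {w : ℂ → ℝ}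
    {H : ℂ → ℂ} (hw : AEStronglyMeasurable w) {m : ℝ} (hm : ∀ z, |w z| ≤ m)
    (hH : LocallyIntegrable H) (h : IsWeakGrad V w H) : IsWeakGrad U w H := by
  refine isWeakGrad_of_test fun φ h1 h2 h3 v => ?_
  have hwl := li_bdd hw hm
  have hZ : IsCompact (tsupport φ \ V) := h2.isCompact.diff hV
  have hZ0 : μH[1] (tsupport φ \ V) = 0 := measure_mono_null (sdiff_subset_sdiff_left h3) h0
  choose η k1 k2 k3 k4 k5 using fun n : ℕ => cutoff hZ hZ0 (ε := 1 / ((n : ℝ) + 1)) (by positivity)
  have hc : ∀ {f : ℂ → ℝ}, ContDiff ℝ ∞ f → Continuous fun z => fderiv ℝ f z v := fun hf =>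
    (hf.continuous_fderiv (by simp)).clm_apply continuous_const
  have i1 := integrable_mul_cc hwl (hc h1) (h2.fderiv_apply ℝ v)
  have i2 := integrable_mul_cc (locallyIntegrable_inner hH v) h1.continuous h2
  set F : ℂ → ℝ := fun z => w z * fderiv ℝ φ z v + inner ℝ (H z) v * φ z with hF
  have iF : Integrable F := i1.add i2
  obtain ⟨P, hP⟩ := h1.continuous.bounded_above_of_compact_support h2
  have hm0 : 0 ≤ m := (abs_nonneg _).trans (hm 0)
  have hP0 : 0 ≤ P := (norm_nonneg _).trans (hP 0)
  have key : ∀ n, ∫ z, F z =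
      (∫ z, (1 - η n z) * F z) - ∫ z, w z * (φ z * fderiv ℝ (η n) z v) := fun n => by
    have hs : tsupport (fun z => η n z * φ z) ⊆ V := fun z hz => by
      by_contra hc
      exact Set.disjoint_left.1 (k3 n) (tsupport_mul_subset_left hz)
        ⟨tsupport_mul_subset_right hz, hc⟩
    have e := h.test ((k1 n).mul h1) h2.mul_left hs v
    have hd : ∀ z, fderiv ℝ (fun z => η n z * φ z) z v
        = η n z * fderiv ℝ φ z v + φ z * fderiv ℝ (η n) z v := fun z => by
      rw [fderiv_fun_mul ((k1 n).differentiable (by simp) z) (h1.differentiable (by simp) z)]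
      simp
    have j1 := integrable_mul_cc hwl ((k1 n).continuous.mul (hc h1))
      (h2.fderiv_apply ℝ v).mul_left
    have j2 := integrable_mul_cc hwl (h1.continuous.mul (hc (k1 n))) h2.mul_right
    have j3 := integrable_mul_cc (locallyIntegrable_inner hH v)
      ((k1 n).continuous.mul h1.continuous) h2.mul_left
    simp only [Pi.mul_apply] at j1 j2 j3
    simp only [hd, mul_add] at e
    rw [integral_add j1 j2] at e
    have e2 : ∫ z, (1 - η n z) * F z = (∫ z, F z) - ((∫ z, w z * (η n z * fderiv ℝ φ z v)) +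
        ∫ z, inner ℝ (H z) v * (η n z * φ z)) := by
      have j4 : Integrable fun z => w z * (η n z * fderiv ℝ φ z v) +
          inner ℝ (H z) v * (η n z * φ z) := j1.add j3
      rw [← integral_add j1 j3, ← integral_sub iF j4]
      exact integral_congr_ae (Eventually.of_forall fun z => by simp only [hF]; ring)
    rw [e2]; linarith only [e]
  have hn : Tendsto (fun n : ℕ => 1 / ((n : ℝ) + 1)) atTop (𝓝 0) :=
    tendsto_one_div_add_atTop_nhds_zero_nat
  have t1 : Tendsto (fun n => ∫ z, (1 - η n z) * F z) atTop (𝓝 0) := by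
    have a1 : Tendsto (volume ∘ fun n => {z | η n z ≠ 1}) atTop (𝓝 0) := by
      refine tendsto_of_tendsto_of_tendsto_of_le_of_le tendsto_const_nhds ?_ (fun _ => zero_le) k4
      simpa only [ENNReal.ofReal_zero] using ENNReal.tendsto_ofReal hn
    refine squeeze_zero_norm (fun n => ?_) (iF.norm.tendsto_setIntegral_nhds_zero a1)
    have ms : MeasurableSet {z | η n z ≠ 1} :=
      (isOpen_ne_fun (k1 n).continuous continuous_const).measurableSet
    rw [← integral_indicator ms]
    refine norm_integral_le_of_norm_le (iF.norm.indicator ms) (Eventually.of_forall fun z => ?_)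
    by_cases hz : η n z = 1
    · rw [hz, sub_self, zero_mul, norm_zero]
      exact indicator_nonneg (fun _ _ => norm_nonneg _) _
    · rw [indicator_of_mem (show z ∈ {z | η n z ≠ 1} from hz), norm_mul, Real.norm_eq_abs,
        abs_of_nonneg (by linarith [(k2 n z).2])]
      exact mul_le_of_le_one_left (norm_nonneg _) (by linarith [(k2 n z).1])
  have t2 : Tendsto (fun n => ∫ z, w z * (φ z * fderiv ℝ (η n) z v)) atTop (𝓝 0) := by
    have a1 := hn.const_mul (m * P * ‖v‖)
    rw [mul_zero] at a1
    refine squeeze_zero_norm (fun n => ?_) a1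
    rw [← ENNReal.ofReal_le_ofReal_iff (by positivity), ofReal_norm,
      ENNReal.ofReal_mul (by positivity)]
    refine (enorm_integral_le_lintegral_enorm _).trans ?_
    refine le_trans ?_ (mul_le_mul_right (k5 n) _)
    rw [← lintegral_const_mul' _ _ ENNReal.ofReal_ne_top]
    refine lintegral_mono fun z => ?_
    rw [← ofReal_norm, ← ofReal_norm, ← ENNReal.ofReal_mul (by positivity)]
    refine ENNReal.ofReal_le_ofReal ?_
    rw [norm_mul, norm_mul]
    have b1 := (fderiv ℝ (η n) z).le_opNorm v
    calc _ ≤ m * (P * (‖fderiv ℝ (η n) z‖ * ‖v‖)) := by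
          gcongr
          · exact hm z
          · exact hP z
      _ = _ := by ring
  have t3 := t1.sub t2
  simp only [← key, sub_zero] at t3
  have e3 : ∫ z, F z = 0 := tendsto_nhds_unique tendsto_const_nhds t3
  rw [integral_add i1 i2] at e3
  linarith only [e3]

theorem abs_clampf_le (m t : ℝ) (hm : 0 ≤ m) : |clampf m t| ≤ m ∧ |clampf m t| ≤ |t| := by
  unfold clampf
  simp only [abs_le, max_def, min_def]
  have := le_abs_self t
  have := neg_abs_le t
  split_ifs <;> refine ⟨⟨?_, ?_⟩, ?_, ?_⟩ <;> linarith [abs_nonneg t]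

theorem remov_glob {U V : Set ℂ} (hV : IsOpen V) (h0 : μH[1] (U \ V) = 0) {u : ℂ → ℝ}
    {G : ℂ → ℂ} (um : Measurable u) (hu : LocallyIntegrable u) (Gm : Measurable G)
    (hG : LocallyIntegrable G) (h : IsWeakGrad V u G) : IsWeakGrad U u G := by
  refine isWeakGrad_of_test fun φ h1 h2 h3 v => ?_
  have hc : Continuous fun z => fderiv ℝ φ z v :=
    (h1.continuous_fderiv (by simp)).clm_apply continuous_const
  have i1 := integrable_mul_cc hu hc (h2.fderiv_apply ℝ v)
  have i2 := integrable_mul_cc (locallyIntegrable_inner hG v) h1.continuous h2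
  have cm : ∀ m, Measurable fun z => clampf m (u z) := fun m =>
    measurable_const.max (measurable_const.min um)
  have im : ∀ m : ℝ, Measurable fun z => (if |u z| < m then (1 : ℝ) else 0) := fun m =>
    Measurable.ite (measurableSet_lt um.abs measurable_const) measurable_const measurable_const
  have ib : ∀ (m : ℝ) z, |(if |u z| < m then (1 : ℝ) else 0)| ≤ 1 := fun m z => by
    split_ifs <;> simp
  have hid : ∀ n : ℕ, ∫ z, clampf (n + 1) (u z) * fderiv ℝ φ z v =
      - ∫ z, inner ℝ ((if |u z| < n + 1 then (1 : ℝ) else 0) • G z) v * φ z := fun n => by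
    have hm : (0 : ℝ) < n + 1 := by positivity
    refine (remov_bdd hV h0 (cm _).aestronglyMeasurable (fun z => (abs_clampf_le _ _ hm.le).1) ?_
      (h.clamp hV um hu Gm hG hm)).test h1 h2 h3 v
    refine hG.mono (((im _).smul Gm).aestronglyMeasurable) (Eventually.of_forall fun z => ?_)
    rw [norm_smul, Real.norm_eq_abs]
    exact mul_le_of_le_one_left (norm_nonneg _) (ib _ z)
  have ev : ∀ t : ℝ, ∀ᶠ n : ℕ in atTop, |t| < n + 1 := fun t => by
    filter_upwards [eventually_ge_atTop ⌈|t|⌉₊] with n hn
    have : (⌈|t|⌉₊ : ℝ) ≤ n := Nat.cast_le.2 hn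
    linarith [Nat.le_ceil |t|]
  have lim1 : Tendsto (fun n : ℕ => ∫ z, clampf (n + 1) (u z) * fderiv ℝ φ z v) atTop
      (𝓝 (∫ z, u z * fderiv ℝ φ z v)) := by
    refine tendsto_integral_of_dominated_convergence (fun z => |u z * fderiv ℝ φ z v|)
      (fun n => ((cm _).mul hc.measurable).aestronglyMeasurable) i1.abs
      (fun n => Eventually.of_forall fun z => ?_) (Eventually.of_forall fun z => ?_)
    · rw [Real.norm_eq_abs, abs_mul, abs_mul]
      exact mul_le_mul_of_nonneg_right
        (abs_clampf_le ((n : ℝ) + 1) (u z) (by positivity)).2 (abs_nonneg _)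
    · refine tendsto_const_nhds.congr' ?_
      filter_upwards [ev (u z)] with n hn
      rw [abs_lt] at hn
      rw [clampf, min_eq_right hn.2.le, max_eq_right hn.1.le]
  have lim2 : Tendsto (fun n : ℕ => ∫ z, inner ℝ ((if |u z| < n + 1 then (1 : ℝ) else 0) • G z) v
      * φ z) atTop (𝓝 (∫ z, inner ℝ (G z) v * φ z)) := by
    refine tendsto_integral_of_dominated_convergence (fun z => |inner ℝ (G z) v * φ z|)
      (fun n => ((((im _).smul Gm).inner measurable_const).mul
        h1.continuous.measurable).aestronglyMeasurable) i2.abs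
      (fun n => Eventually.of_forall fun z => ?_) (Eventually.of_forall fun z => ?_)
    · rw [inner_smul_left, conj_trivial, Real.norm_eq_abs, mul_assoc, abs_mul]
      exact mul_le_of_le_one_left (abs_nonneg _) (ib _ z)
    · refine tendsto_const_nhds.congr' ?_
      filter_upwards [ev (u z)] with n hn
      rw [if_pos hn, one_smul]
  exact tendsto_nhds_unique (lim1.congr hid) lim2.neg

/-- A measurable integrable representative of a function on a set. -/
theorem exists_rep {E : Type*} [NormedAddCommGroup E] [MeasurableSpace E] [BorelSpace E]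
    {f : ℂ → E} {W : Set ℂ} (hW : MeasurableSet W) (hf : IntegrableOn f W) :
    ∃ f' : ℂ → E, Measurable f' ∧ Integrable f' ∧ f =ᵐ[volume.restrict W] f' := by
  have e : f =ᵐ[volume.restrict W] W.indicator (hf.1.mk f) := by
    filter_upwards [hf.1.ae_eq_mk, ae_restrict_mem hW] with z h1 h2
    rw [indicator_of_mem h2, h1]
  exact ⟨W.indicator (hf.1.mk f), hf.1.stronglyMeasurable_mk.measurable.indicator hW,
    (integrable_indicator_iff hW).2 (hf.congr hf.1.ae_eq_mk), e⟩

/-- Removability of relatively closed sets of zero length. -/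
theorem remov {U V : Set ℂ} (hU : IsOpen U) (hV : IsOpen V) (h0 : μH[1] (U \ V) = 0) {u : ℂ → ℝ}
    {G : ℂ → ℂ} (hu : ∀ C ⊆ U, IsCompact C → IntegrableOn u C)
    (hG : ∀ C ⊆ U, IsCompact C → IntegrableOn G C) (h : IsWeakGrad V u G) : IsWeakGrad U u G := by
  refine isWeakGrad_of_local hU fun W hW hc hWU => ?_
  obtain ⟨u', a1, a2, a3⟩ := exists_rep hW.measurableSet
    ((hu _ hWU hc).mono_set subset_closure)
  obtain ⟨G', b1, b2, b3⟩ := exists_rep hW.measurableSet
    ((hG _ hWU hc).mono_set subset_closure)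
  have hle : volume.restrict (W ∩ V) ≤ volume.restrict W :=
    Measure.restrict_mono inter_subset_left le_rfl
  have h1 : IsWeakGrad (W ∩ V) u' G' :=
    (h.mono inter_subset_right).congr (ae_mono hle a3) (ae_mono hle b3)
  refine (remov_glob (hW.inter hV) (measure_mono_null ?_ h0) a1 a2.locallyIntegrable b1
    b2.locallyIntegrable h1).congr a3.symm b3.symm
  exact fun z hz => ⟨hWU (subset_closure hz.1), fun hz' => hz.2 ⟨hz.1, hz'⟩⟩

end Vale.Agent.N128
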