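import Vale.Agent.N128.Loc

/-! Relatively closed sets of zero length do not separate. -/

open MeasureTheory Set Metric Filter
open scoped ENNReal NNReal ContDiff Topology Real

namespace Vale.Agent.N128

open Vale.Agent.P128

theorem avoid {Z : Set ℂ} (h0 : μH[1] Z = 0) {f : ℂ → ℝ} {c : ℝ≥0} (hf : LipschitzWith c f)
    {a b : ℝ} (hab : a < b) : ∃ s ∈ Ioo a b, s ∉ f '' Z := by
  by_contra hc
  have h1 : Ioo a b ⊆ f '' Z := fun s hs => by_contra fun h => hc ⟨s, hs, h⟩
  have h2 := hf.hausdorffMeasure_image_le zero_le_one Z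
  rw [h0, mul_zero, hausdorffMeasure_real] at h2
  have h3 := (measure_mono h1).trans h2
  rw [Real.volume_Ioo, nonpos_iff_eq_zero, ENNReal.ofReal_eq_zero] at h3
  linarith

theorem ball_conn {V : Set ℂ} (hV : IsOpen V) {x : ℂ} {R : ℝ} (h0 : μH[1] (ball x R \ V) = 0) :
    IsPreconnected (ball x R ∩ V) := by
  refine isPreconnected_of_forall_pair fun p hp q hq => ?_
  rcases eq_or_ne q p with rfl | hne
  · exact ⟨{q}, singleton_subset_iff.2 hp, rfl, rfl, isPreconnected_singleton⟩
  have ho := isOpen_ball.inter hV (s := ball x R)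
  obtain ⟨δ₁, a1, b1⟩ := Metric.isOpen_iff.1 ho p hp
  obtain ⟨δ₂, a2, b2⟩ := Metric.isOpen_iff.1 ho q hq
  have hd : q - p ≠ 0 := sub_ne_zero.2 hne
  have hn : 0 < ‖q - p‖ := norm_pos_iff.2 hd
  have hf : LipschitzWith ‖(q - p)⁻¹‖₊ fun z : ℂ => ((z - p) * (q - p)⁻¹).im := by
    refine LipschitzWith.of_dist_le_mul fun z w => ?_
    rw [Real.dist_eq, ← Complex.sub_im, ← sub_mul, sub_sub_sub_cancel_right, dist_eq_norm,
      coe_nnnorm, mul_comm, ← norm_mul, mul_comm]
    exact Complex.abs_im_le_norm _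
  obtain ⟨s, hs, hs'⟩ := avoid h0 hf (a := 0) (b := min δ₁ δ₂ / ‖q - p‖) (by positivity)
  have hv : ‖(s : ℂ) * Complex.I * (q - p)‖ < min δ₁ δ₂ := by
    rw [norm_mul, norm_mul, Complex.norm_I, mul_one, Complex.norm_real, Real.norm_eq_abs,
      abs_of_pos hs.1]
    exact (lt_div_iff₀ hn).1 hs.2
  have c1 : p + s * Complex.I * (q - p) ∈ ball p δ₁ := by
    rw [mem_ball, dist_self_add_left]; exact hv.trans_le (min_le_left _ _)
  have c2 : q + s * Complex.I * (q - p) ∈ ball q δ₂ := by
    rw [mem_ball, dist_self_add_left]; exact hv.trans_le (min_le_right _ _)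
  refine ⟨ball p δ₁ ∪ segment ℝ (p + s * Complex.I * (q - p)) (q + s * Complex.I * (q - p)) ∪
    ball q δ₂, union_subset (union_subset b1 fun z hz => ?_) b2,
    Or.inl (Or.inl (mem_ball_self a1)), Or.inr (mem_ball_self a2), ?_⟩
  · have h1 : z ∈ ball x R := (convex_ball x R).segment_subset (b1 c1).1 (b2 c2).1 hz
    refine ⟨h1, by_contra fun h2 => hs' ⟨z, ⟨h1, h2⟩, ?_⟩⟩
    rw [segment_eq_image'] at hz
    obtain ⟨t, -, rfl⟩ := hz
    have : (p + s * Complex.I * (q - p) + t • (q + s * Complex.I * (q - p) -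
        (p + s * Complex.I * (q - p))) - p) * (q - p)⁻¹ = t + s * Complex.I := by
      rw [Complex.real_smul]; field_simp; ring
    simp only [this]; simp
  · refine IsPreconnected.union _ (Or.inr (right_mem_segment _ _ _)) c2
      (IsPreconnected.union _ c1 (left_mem_segment _ _ _) (convex_ball _ _).isPreconnected
        (convex_segment _ _).isPreconnected) (convex_ball _ _).isPreconnected

theorem comp_null {U V : Set ℂ} (hU : IsOpen U) (hV : IsOpen V) (h0 : μH[1] (U \ V) = 0) {p q : ℂ}
    (hp : p ∈ V) (hq : q ∈ V) (h : q ∈ connectedComponentIn U p) :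
    q ∈ connectedComponentIn V p := by
  have hpU : p ∈ U := by
    by_contra hc
    rw [connectedComponentIn_eq_empty hc] at h
    exact h
  set A := connectedComponentIn V p with hA
  have key : connectedComponentIn U p ⊆ U ∩ interior (A ∪ Vᶜ) := by
    refine IsPreconnected.subset_left_of_subset_union (v := interior Aᶜ) (hU.inter isOpen_interior)
      isOpen_interior ?_ (fun x hx => ?_) ⟨p, mem_connectedComponentIn hpU, hpU, ?_⟩
      isPreconnected_connectedComponentIn
    · rw [Set.disjoint_iff_inter_eq_empty]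
      refine ((hU.inter isOpen_interior).inter isOpen_interior).eq_empty_of_measure_zero
        (μ := volume) (measure_mono_null (fun z hz => ?_)
          (GM.volume_eq_zero_of_hausdorff (h0.trans_ne ENNReal.zero_ne_top)))
      exact ⟨hz.1.1, (interior_subset hz.1.2).resolve_left (interior_subset hz.2)⟩
    · have hxU := connectedComponentIn_subset _ _ hx
      obtain ⟨r, hr, hb⟩ := Metric.isOpen_iff.1 hU x hxU
      have hc := ball_conn hV (measure_mono_null (sdiff_subset_sdiff_left hb) h0)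
      by_cases hm : (ball x r ∩ A).Nonempty
      · obtain ⟨y, y1, y2⟩ := hm
        have h1 := hc.subset_connectedComponentIn ⟨y1, connectedComponentIn_subset _ _ y2⟩
          inter_subset_right
        rw [← connectedComponentIn_eq y2] at h1
        refine Or.inl ⟨hxU, mem_interior.2 ⟨ball x r, fun z hz => ?_, isOpen_ball,
          mem_ball_self hr⟩⟩
        by_cases hz' : z ∈ V
        · exact Or.inl (h1 ⟨hz, hz'⟩)
        · exact Or.inr hz'
      · exact Or.inr (mem_interior.2 ⟨ball x r, fun z hz hz' => hm ⟨z, hz, hz'⟩, isOpen_ball,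
          mem_ball_self hr⟩)
    · exact mem_interior.2 ⟨A, subset_union_left, hV.connectedComponentIn,
        mem_connectedComponentIn hp⟩
  exact (interior_subset (key h).2).resolve_right fun h1 => h1 hq

theorem annulus {V : Set ℂ} (hV : IsOpen V) {x : ℂ} {R : ℝ} (hR : 0 < R)
    (h0 : μH[1] (ball x R \ V) = 0) :
    ∃ a b, 0 < a ∧ a < b ∧ b < R ∧ ∀ z, a ≤ dist z x → dist z x ≤ b → z ∈ V := by
  have hZ : IsCompact (closedBall x (R / 2) \ V) := (isCompact_closedBall _ _).diff hV
  obtain ⟨s, hs, hs'⟩ := avoid (measure_mono_null (sdiff_subset_sdiff_left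
    (closedBall_subset_ball (half_lt_self hR))) h0) (LipschitzWith.dist_left x) (half_pos hR)
  have ho : IsOpen (Ioo 0 (R / 2) ∩ ((fun z => dist z x) '' (closedBall x (R / 2) \ V))ᶜ) :=
    isOpen_Ioo.inter (hZ.image (continuous_id.dist continuous_const)).isClosed.isOpen_compl
  obtain ⟨δ, hδ, hb⟩ := nhds_basis_closedBall.mem_iff.1 (ho.mem_nhds ⟨hs, hs'⟩)
  rw [Real.closedBall_eq_Icc] at hb
  have e1 := (hb (left_mem_Icc.2 (by linarith))).1.1
  have e2 := (hb (right_mem_Icc.2 (by linarith))).1.2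
  refine ⟨s - δ, s + δ, e1, by linarith, by linarith, fun z h1 h2 => by_contra fun h3 => ?_⟩
  exact (hb ⟨h1, h2⟩).2 ⟨z, ⟨mem_closedBall.2 (by linarith), h3⟩, rfl⟩

end Vale.Agent.N128
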